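import Vale.Agent.Lib.P308E.Defs

namespace Vale.Agent.Lib.P308E

open Finset Vale.Agent.Lib.P308

variable {V : Type*} [Fintype V] [DecidableEq V] (G : SimpleGraph V) [DecidableRel G.Adj]

/-- Every near-perfect matching gives a state. -/
theorem npm_le_states :
    {M : G.Subgraph | M.IsMatching ∧ (M.vertsᶜ).ncard = 2}.ncard ≤ (States G).card := by
  classical
  have hex : ∀ M ∈ {M : G.Subgraph | M.IsMatching ∧ (M.vertsᶜ).ncard = 2},
      ∃ s : (V → V) × V × V, s ∈ States G ∧ Rep M s.1 := by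
    rintro M ⟨hM, hM2⟩
    obtain ⟨σ, hrep, hσ⟩ := exists_rep hM
    obtain ⟨u, w, huw0, huw⟩ := Set.ncard_eq_two.1 hM2
    have hfix : ∀ v, σ v = v ↔ (v = u ∨ v = w) := by
      intro v
      have h1 : v ∈ M.vertsᶜ ↔ (v = u ∨ v = w) := by rw [huw]; simp
      rw [← h1, Set.mem_compl_iff, hrep.1 v, not_not]
    refine ⟨(σ, u, w), ?_, hrep⟩
    simp only [States, mem_filter, mem_univ, true_and]
    exact ⟨hσ, huw0, hfix⟩
  choose f hf1 hf2 using hex
  let g : {M : G.Subgraph | M.IsMatching ∧ (M.vertsᶜ).ncard = 2} → (States G) :=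
    fun M => ⟨f M.1 M.2, hf1 M.1 M.2⟩
  have hg : Function.Injective g := by
    intro M M' h
    have h0 : f M.1 M.2 = f M'.1 M'.2 := congrArg Subtype.val h
    have h1 := hf2 M.1 M.2
    have h2 := hf2 M'.1 M'.2
    rw [h0] at h1
    exact Subtype.ext (rep_sub_unique h1 h2)
  have := Nat.card_le_card_of_injective g hg
  rw [Nat.card_coe_set_eq, Nat.card_eq_fintype_card, Fintype.card_coe] at this
  exact this

end Vale.Agent.Lib.P308E
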