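import Vale.Agent.Lib.P308E.Defs

namespace Vale.Agent.Lib.P308E

open Finset Vale.Agent.Lib.P308

variable {V : Type*} [Fintype V] [DecidableEq V] (G : SimpleGraph V) [DecidableRel G.Adj]

/-- Close up a state with adjacent holes: match `a` with `b`. -/
def closeUp (σ : V → V) (a b : V) : V → V :=
  fun z => if z = a then b else if z = b then a else σ z

omit [Fintype V] [DecidableRel G.Adj] in
lemma closeUp_isM {σ : V → V} {a b : V} (h : IsState G σ a b) (hab : G.Adj a b) :
    IsM G (closeUp σ a b) ∧ ∀ v, closeUp σ a b v ≠ v := by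
  obtain ⟨⟨hinv, hadj⟩, hne, hfix⟩ := h
  have hσa : ∀ z, z ≠ a → z ≠ b → σ z ≠ a := by
    intro z hza hzb hz
    have h1 : σ a = a := (hfix a).2 (Or.inl rfl)
    have : σ (σ z) = a := by rw [hz, h1]
    rw [hinv] at this
    exact hza this
  have hσb : ∀ z, z ≠ a → z ≠ b → σ z ≠ b := by
    intro z hza hzb hz
    have h1 : σ b = b := (hfix b).2 (Or.inr rfl)
    have : σ (σ z) = b := by rw [hz, h1]
    rw [hinv] at this
    exact hzb this
  refine ⟨⟨?_, ?_⟩, ?_⟩
  · intro v
    by_cases hva : v = a
    · subst hva
      simp [closeUp, hne.symm]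
    · by_cases hvb : v = b
      · subst hvb
        simp [closeUp, hva]
      · simp [closeUp, hva, hvb, hσa v hva hvb, hσb v hva hvb, hinv]
  · intro v _
    by_cases hva : v = a
    · subst hva
      simpa [closeUp] using hab
    · by_cases hvb : v = b
      · subst hvb
        simpa [closeUp, hva] using hab.symm
      · have : σ v ≠ v := by
          intro hc
          rcases (hfix v).1 hc with h | h
          · exact hva h
          · exact hvb h
        simpa [closeUp, hva, hvb] using hadj v this
  · intro v
    by_cases hva : v = a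
    · subst hva
      simpa [closeUp] using hne.symm
    · by_cases hvb : v = b
      · subst hvb
        simpa [closeUp, hva] using hne
      · have : σ v ≠ v := by
          intro hc
          rcases (hfix v).1 hc with h | h
          · exact hva h
          · exact hvb h
        simpa [closeUp, hva, hvb] using this

/-- States with adjacent holes inject into (vertex, perfect matching). -/
theorem exit_le :
    ((States G).filter fun s => G.Adj s.2.1 s.2.2).card
      ≤ Fintype.card V * {M : G.Subgraph | M.IsPerfectMatching}.ncard := by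
  classical
  have key := count_le (γ := V)
    (((States G).filter fun s => G.Adj s.2.1 s.2.2 : Finset ((V → V) × V × V)) :
      Set ((V → V) × V × V))
    {M : G.Subgraph | M.IsPerfectMatching}
    (fun s M c => c = s.2.1 ∧ IsState G s.1 s.2.1 s.2.2 ∧ Rep M (closeUp s.1 s.2.1 s.2.2)) ?_ ?_
  · rwa [Set.ncard_coe_finset] at key
  · rintro ⟨σ, a, b⟩ hs
    have hs' : IsState G σ a b ∧ G.Adj a b := by
      simpa [States] using hs
    obtain ⟨h1, h2⟩ := closeUp_isM G hs'.1 hs'.2
    obtain ⟨M, hrep, hM⟩ := exists_sub h1 h2
    exact ⟨M, hM, a, rfl, hs'.1, hrep⟩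
  · rintro ⟨σ, a, b⟩ ⟨σ', a', b'⟩ M c ⟨h1, h2, h3⟩ ⟨h1', h2', h3'⟩
    simp only at h1 h2 h3 h1' h2' h3'
    have haa : a = a' := h1.symm.trans h1'
    subst haa
    have hfun : closeUp σ a b = closeUp σ' a b' := rep_fun_unique h3 h3'
    have hbb : b = b' := by
      have := congrFun hfun a
      simpa [closeUp] using this
    subst hbb
    have hσ : σ = σ' := by
      funext z
      by_cases hza : z = a
      · subst hza
        rw [(h2.2.2 z).2 (Or.inl rfl), (h2'.2.2 z).2 (Or.inl rfl)]
      · by_cases hzb : z = b
        · subst hzb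
          rw [(h2.2.2 z).2 (Or.inr rfl), (h2'.2.2 z).2 (Or.inr rfl)]
        · have := congrFun hfun z
          simpa [closeUp, hza, hzb] using this
    subst hσ
    rfl

end Vale.Agent.Lib.P308E
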