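import Vale.Agent.Lib.P308E.Upper

namespace Vale.Agent.Lib.P308E

open Finset Vale.Agent.Lib.P308

variable {V : Type*} [Fintype V] [DecidableEq V] (G : SimpleGraph V) [DecidableRel G.Adj]

/-- Walks avoiding the forbidden set are genuine walks in the graph of near-perfect matchings. -/
theorem wt_le_wb {p : ℝ} (hp : 0 ≤ p) (σ₀ : V → V) (h₀ : ∀ z, σ₀ (σ₀ z) = z) (k : ℕ) :
    ∀ (σ : V → V) (a b : V) (C : Finset V), IsState G σ a b → a ∈ C → b ∈ C →
      (∀ z, z ∉ C → σ z = σ₀ z) → (∀ z ∈ C, σ₀ z ∈ C) →
      wt G p σ₀ k C a b ≤ wb G p k σ a b := by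
  induction k with
  | zero =>
    intro σ a b C _ _ _ _ _
    simp only [wt, wb]
    exact le_refl _
  | succ k ih =>
    intro σ a b C hst ha hb hag hcl
    simp only [wt, wb]
    have hsub : G.neighborFinset a \ C ⊆ (G.neighborFinset a).erase b := by
      intro x hx
      rw [mem_sdiff] at hx
      rw [mem_erase]
      refine ⟨?_, hx.1⟩
      intro hxb
      exact hx.2 (hxb ▸ hb)
    calc ∑ x ∈ G.neighborFinset a \ C, p * wt G p σ₀ k (C ∪ {x, σ₀ x}) b (σ₀ x)
        ≤ ∑ x ∈ G.neighborFinset a \ C, p * wb G p k (mv σ a x) b (σ x) := by
          apply Finset.sum_le_sum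
          intro x hx
          rw [mem_sdiff] at hx
          obtain ⟨hxN, hxC⟩ := hx
          have hadj : G.Adj a x := by simpa using hxN
          have hxb : x ≠ b := fun h => hxC (h ▸ hb)
          have hsx : σ x = σ₀ x := hag x hxC
          apply mul_le_mul_of_nonneg_left _ hp
          rw [← hsx]
          apply ih (mv σ a x) b (σ x) (C ∪ {x, σ x}) (isState_mv G hst hadj hxb)
          · exact mem_union_left _ hb
          · apply mem_union_right; simp
          · intro z hz
            rw [mem_union, not_or] at hz
            obtain ⟨hzC, hz2⟩ := hz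
            have hza : z ≠ a := fun h => hzC (h ▸ ha)
            have hzx : z ≠ x := fun h => hz2 (by simp [h])
            have hzs : z ≠ σ x := fun h => hz2 (by simp [h])
            simp only [mv, hza, hzx, hzs, if_false]
            exact hag z hzC
          · intro z hz
            rw [mem_union] at hz
            rcases hz with hz | hz
            · exact mem_union_left _ (hcl z hz)
            · apply mem_union_right
              rw [mem_insert, mem_singleton] at hz
              rcases hz with rfl | rfl
              · rw [← hsx]; simp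
              · rw [hsx, h₀]; simp
      _ ≤ ∑ x ∈ (G.neighborFinset a).erase b, p * wb G p k (mv σ a x) b (σ x) := by
          apply Finset.sum_le_sum_of_subset_of_nonneg hsub
          intro x _ _
          exact mul_nonneg hp (wb_nonneg G hp k _ _ _)

end Vale.Agent.Lib.P308E
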