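import Vale.Agent.Lib.P308E.LowerC
import Vale.Agent.Lib.P308E.Compare
import Vale.Agent.Lib.P308E.BridgeA
import Vale.Agent.Lib.P308E.BridgeB

namespace Vale.Agent.Lib.P308E

open Finset Vale.Agent.Lib.P308

variable {V : Type*} [Fintype V] [DecidableEq V] (G : SimpleGraph V) [DecidableRel G.Adj]

/-- Every state has weighted walk count at least `p`. -/
theorem comb_state_lower {p : ℝ} (hp : 0 ≤ p) (g I : ℕ) (hg : 2 ≤ g)
    (h1 : FracExp G p g I) (h2 : Joined G (g ^ I)) (s : (V → V) × V × V) (hs : s ∈ States G) :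
    p ≤ wb G p (2 * I) s.1 s.2.1 s.2.2 := by
  classical
  have hst : IsState G s.1 s.2.1 s.2.2 := by
    simpa [States] using hs
  have hinv : ∀ z, s.1 (s.1 z) = z := hst.1.1
  have hlow := wt_lower G hp s.1 hinv g I hg h1 h2 s.2.1 s.2.2
  have hcmp := wt_le_wb G hp s.1 hinv (2 * I) s.1 s.2.1 s.2.2 {s.2.1, s.2.2} hst
    (by simp) (by simp) (fun z _ => rfl)
    (by
      intro z hz
      have hz' : z = s.2.1 ∨ z = s.2.2 := by simpa using hz
      have : s.1 z = z := (hst.2.2 z).2 hz'
      rw [this]; exact hz)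
  exact le_trans hlow hcmp

/-- The walks of length zero count the states with adjacent holes. -/
theorem comb_zero (p : ℝ) :
    ∑ s ∈ States G, wb G p 0 s.1 s.2.1 s.2.2
      = p * (((States G).filter fun s => G.Adj s.2.1 s.2.2).card : ℝ) := by
  simp only [wb]
  rw [← Finset.sum_filter, Finset.sum_const, nsmul_eq_mul, mul_comm]

/-- Combinatorial main theorem. -/
theorem comb_main {p : ℝ} (hp : 0 < p) (d g I : ℕ) (hd : ∀ v, G.degree v ≤ d) (hg : 2 ≤ g)
    (h1 : FracExp G p g I) (h2 : Joined G (g ^ I)) :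
    ({M : G.Subgraph | M.IsMatching ∧ (M.vertsᶜ).ncard = 2}.ncard : ℝ)
      ≤ (p * d) ^ (2 * I) * (Fintype.card V * {M : G.Subgraph | M.IsPerfectMatching}.ncard) := by
  have hp0 : 0 ≤ p := hp.le
  have hA : ({M : G.Subgraph | M.IsMatching ∧ (M.vertsᶜ).ncard = 2}.ncard : ℝ)
      ≤ ((States G).card : ℝ) := by
    exact_mod_cast npm_le_states G
  have hB : ((States G).card : ℝ) * p ≤ ∑ s ∈ States G, wb G p (2 * I) s.1 s.2.1 s.2.2 := by
    have := Finset.card_nsmul_le_sum (States G)
      (fun s => wb G p (2 * I) s.1 s.2.1 s.2.2) p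
      (fun s hs => comb_state_lower G hp0 g I hg h1 h2 s hs)
    simpa [nsmul_eq_mul] using this
  have hC := wb_sum_le G hp0 d hd (2 * I)
  rw [comb_zero] at hC
  have hD : ((((States G).filter fun s => G.Adj s.2.1 s.2.2).card : ℕ) : ℝ)
      ≤ (Fintype.card V : ℝ) * ({M : G.Subgraph | M.IsPerfectMatching}.ncard : ℝ) := by
    exact_mod_cast exit_le G
  have hpd : 0 ≤ (p * d) ^ (2 * I) := by positivity
  have hE : ((States G).card : ℝ) * p
      ≤ ((p * d) ^ (2 * I) * ((Fintype.card V : ℝ) *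
          ({M : G.Subgraph | M.IsPerfectMatching}.ncard : ℝ))) * p := by
    calc ((States G).card : ℝ) * p
        ≤ (p * d) ^ (2 * I) * (p * (((States G).filter fun s => G.Adj s.2.1 s.2.2).card : ℝ)) :=
          le_trans hB hC
      _ ≤ (p * d) ^ (2 * I) * (p * ((Fintype.card V : ℝ) *
          ({M : G.Subgraph | M.IsPerfectMatching}.ncard : ℝ))) := by
          apply mul_le_mul_of_nonneg_left _ hpd
          exact mul_le_mul_of_nonneg_left hD hp0
      _ = _ := by ring
  exact le_trans hA (le_of_mul_le_mul_right hE hp)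

end Vale.Agent.Lib.P308E
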