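import Vale.Agent.Lib.P308.Bridge

namespace Vale.Agent.Lib.P308E

open Finset Vale.Agent.Lib.P308

variable {V : Type*} [Fintype V] [DecidableEq V] (G : SimpleGraph V) [DecidableRel G.Adj]

/-- Weighted number of alternating two-ended hole walks for a fixed matching `σ`, with forbidden
set `C`: the hole `a` moves to `σ x` for a neighbour `x ∉ C` of `a`, then the two holes exchange
roles; after `k` moves the two holes must be adjacent.  Every non-matching edge has weight `p`. -/
noncomputable def wt (p : ℝ) (σ : V → V) : ℕ → Finset V → V → V → ℝ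
  | 0, _, a, b => if G.Adj a b then p else 0
  | k + 1, C, a, b => ∑ x ∈ G.neighborFinset a \ C, p * wt p σ k (C ∪ {x, σ x}) b (σ x)

/-- Layer version of `wt`. -/
noncomputable def wtS (p : ℝ) (σ : V → V) (k : ℕ) (C L L' : Finset V) : ℝ :=
  ∑ a ∈ L, ∑ b ∈ L', wt G p σ k C a b

/-- The matching obtained from `σ` (with hole `a`) by matching `a` with `x` and freeing `σ x`. -/
def mv (σ : V → V) (a x : V) : V → V :=
  fun z => if z = a then x else if z = x then a else if z = σ x then σ x else σ z

/-- Weighted number of hole walks in the graph of near-perfect matchings (no forbidden set,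
the matching is updated). -/
noncomputable def wb (p : ℝ) : ℕ → (V → V) → V → V → ℝ
  | 0, _, a, b => if G.Adj a b then p else 0
  | k + 1, σ, a, b => ∑ x ∈ (G.neighborFinset a).erase b, p * wb p k (mv σ a x) b (σ x)

/-- `σ` codes a near-perfect matching with holes `a ≠ b`. -/
def IsState (σ : V → V) (a b : V) : Prop :=
  IsM G σ ∧ a ≠ b ∧ ∀ z, σ z = z ↔ (z = a ∨ z = b)

open Classical in
/-- The finite set of all states. -/
noncomputable def States : Finset ((V → V) × V × V) :=
  univ.filter fun s => IsState G s.1 s.2.1 s.2.2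

/-- Fractional vertex expansion after thinning the edges with density `p`. -/
def FracExp (p : ℝ) (g I : ℕ) : Prop :=
  ∀ L C : Finset V, g * L.card ≤ g ^ I → C.card ≤ (4 + 4 * g) * L.card →
    ((g * L.card : ℕ) : ℝ) ≤ ∑ x ∈ Cᶜ, min 1 (p * ((G.neighborFinset x ∩ L).card : ℝ))

/-- Any two vertex sets of size `s` are joined by an edge. -/
def Joined (s : ℕ) : Prop :=
  ∀ S T : Finset V, S.card = s → T.card = s → ∃ x ∈ S, ∃ y ∈ T, G.Adj x y

/-- The adjacency operator has norm at most `lam` on the functions of mean zero. -/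
def SpecBound (lam : ℝ) : Prop :=
  ∀ x : V → ℝ, ∑ v, x v = 0 →
    ∑ v, (∑ w ∈ G.neighborFinset v, x w) ^ 2 ≤ lam ^ 2 * ∑ v, x v ^ 2

end Vale.Agent.Lib.P308E
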