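import Vale.Agent.Lib.P308E.Spec1B

namespace Vale.Agent.Lib.P308E

open Finset Vale.Agent.Lib.P308

variable {V : Type*} [Fintype V] [DecidableEq V] (G : SimpleGraph V) [DecidableRel G.Adj]

/-- Two sets of size `s > lam N / d` are joined by an edge. -/
theorem spec_joined {d : ℕ} (hreg : G.IsRegularOfDegree d) {lam : ℝ} (hl : 0 ≤ lam)
    (h : SpecBound G lam) (s : ℕ) (hs : lam * Fintype.card V < d * s) : Joined G s := by
  intro S T hS hT
  by_contra hno
  push Not at hno
  have hzero : ∑ x ∈ T, ((G.neighborFinset x ∩ S).card : ℝ) = 0 := by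
    apply Finset.sum_eq_zero
    intro x hx
    have : G.neighborFinset x ∩ S = ∅ := by
      rw [Finset.eq_empty_iff_forall_notMem]
      intro w hw
      rw [Finset.mem_inter, SimpleGraph.mem_neighborFinset] at hw
      exact hno w hw.2 x hx hw.1.symm
    rw [this]
    simp
  have hmix := spec_mixing G hreg hl h S T
  rw [hzero, hS, hT, mul_zero, zero_sub, abs_neg, Real.sqrt_mul_self (Nat.cast_nonneg s)] at hmix
  have hN0 : (0 : ℝ) ≤ Fintype.card V := by positivity
  have hs0 : (0 : ℝ) ≤ s := Nat.cast_nonneg s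
  have hspos : (0 : ℝ) < s := by
    rcases eq_or_lt_of_le hs0 with h0 | hpos
    · rw [← h0] at hs
      have : 0 ≤ lam * Fintype.card V := mul_nonneg hl hN0
      linarith
    · exact hpos
  have h1 : (d : ℝ) * s * s ≤ lam * s * Fintype.card V := le_trans (le_abs_self _) hmix
  have h2 : (lam * Fintype.card V) * s < (d * s) * s := mul_lt_mul_of_pos_right hs hspos
  nlinarith [h1, h2]

end Vale.Agent.Lib.P308E
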