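import Vale.Agent.Lib.P308E.Spec0

namespace Vale.Agent.Lib.P308E

open Finset Vale.Agent.Lib.P308

variable {V : Type*} [Fintype V] [DecidableEq V] (G : SimpleGraph V) [DecidableRel G.Adj]

/-- Expander mixing lemma. -/
theorem spec_mixing {d : ℕ} (hreg : G.IsRegularOfDegree d) {lam : ℝ} (hl : 0 ≤ lam)
    (h : SpecBound G lam) (L C : Finset V) :
    |(Fintype.card V : ℝ) * ∑ x ∈ C, ((G.neighborFinset x ∩ L).card : ℝ)
        - d * L.card * C.card|
      ≤ lam * Real.sqrt (L.card * C.card) * Fintype.card V := by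
  classical
  rcases Nat.eq_zero_or_pos (Fintype.card V) with h0 | hpos
  · have hE : IsEmpty V := Fintype.card_eq_zero_iff.mp h0
    have hL : L = ∅ := Finset.eq_empty_of_isEmpty L
    have hC : C = ∅ := Finset.eq_empty_of_isEmpty C
    subst hL hC
    simp [h0]
  have hNpos : (0 : ℝ) < (Fintype.card V : ℝ) := by exact_mod_cast hpos
  set N : ℝ := (Fintype.card V : ℝ) with hN
  set y : V → ℝ := fun v => ∑ w ∈ G.neighborFinset v, cen L w with hy
  have hy0 : ∑ v, y v = 0 := by
    have := adj_sum G hreg (cen L)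
    rw [cen_sum, mul_zero] at this
    exact this
  have hy2 : ∑ v, y v ^ 2 ≤ lam ^ 2 * L.card := by
    calc ∑ v, y v ^ 2 ≤ lam ^ 2 * ∑ v, cen L v ^ 2 := h _ (cen_sum L)
      _ ≤ lam ^ 2 * L.card := by
        apply mul_le_mul_of_nonneg_left (cen_sq_le L) (sq_nonneg _)
  have h1 : ∑ x ∈ C, ((G.neighborFinset x ∩ L).card : ℝ)
      = C.card * (d * L.card / N) + ∑ x ∈ C, y x := by
    rw [Finset.sum_congr rfl (fun x _ => e_eq G hreg L x), Finset.sum_add_distrib]
    simp [nsmul_eq_mul, hN, hy]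
  have h2 : ∑ v, cen C v * y v = ∑ x ∈ C, y x := by
    have h3 : ∀ v, cen C v * y v = (if v ∈ C then y v else 0) - (C.card : ℝ) / N * y v := by
      intro v
      unfold cen
      split_ifs <;> ring
    rw [Finset.sum_congr rfl (fun v _ => h3 v), Finset.sum_sub_distrib, ← Finset.mul_sum, hy0,
      mul_zero, sub_zero, Finset.sum_ite_mem, Finset.univ_inter]
  have key : N * ∑ x ∈ C, ((G.neighborFinset x ∩ L).card : ℝ) - d * L.card * C.card
      = N * ∑ v, cen C v * y v := by
    rw [h1, h2]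
    field_simp
    ring
  rw [key, abs_mul, abs_of_pos hNpos]
  have cs : |∑ v, cen C v * y v| ≤ Real.sqrt ((C.card : ℝ) * (lam ^ 2 * L.card)) := by
    apply Real.abs_le_sqrt
    calc (∑ v, cen C v * y v) ^ 2 ≤ (∑ v, cen C v ^ 2) * (∑ v, y v ^ 2) :=
          Finset.sum_mul_sq_le_sq_mul_sq _ _ _
      _ ≤ (C.card : ℝ) * (lam ^ 2 * L.card) := by
          apply mul_le_mul (cen_sq_le C) hy2 (Finset.sum_nonneg (fun _ _ => sq_nonneg _))
            (Nat.cast_nonneg _)
  have hs : Real.sqrt ((C.card : ℝ) * (lam ^ 2 * L.card))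
      = lam * Real.sqrt (L.card * C.card) := by
    have : (C.card : ℝ) * (lam ^ 2 * L.card) = lam ^ 2 * ((L.card : ℝ) * C.card) := by ring
    rw [this, Real.sqrt_mul (sq_nonneg _), Real.sqrt_sq hl]
  rw [hs] at cs
  calc N * |∑ v, cen C v * y v| ≤ N * (lam * Real.sqrt (L.card * C.card)) :=
        mul_le_mul_of_nonneg_left cs hNpos.le
    _ = lam * Real.sqrt (L.card * C.card) * N := by ring

end Vale.Agent.Lib.P308E
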