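import Vale.Agent.Lib.P308E.Spec1A
import Vale.Agent.Lib.P308E.Spec1B

namespace Vale.Agent.Lib.P308E

open Finset Vale.Agent.Lib.P308

variable {V : Type*} [Fintype V] [DecidableEq V] (G : SimpleGraph V) [DecidableRel G.Adj]

theorem min_one_ge (t : ℝ) : t - t ^ 2 / 4 ≤ min 1 t := by
  apply le_min
  · nlinarith [sq_nonneg (t / 2 - 1)]
  · nlinarith [sq_nonneg t]

/-- Fractional expansion with `g = 2`, `p = 8 / d`, for `lam ≤ d / 25` and layers of size
at most `lam N / d`. -/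
theorem spec_fracExp {d : ℕ} (hd : 0 < d) (hreg : G.IsRegularOfDegree d) {lam : ℝ} (hl : 0 ≤ lam)
    (h : SpecBound G lam) (h25 : 25 * lam ≤ d) (I : ℕ)
    (hI : (d : ℝ) * 2 ^ I ≤ 2 * (lam * Fintype.card V)) : FracExp G (8 / d) 2 I := by
  classical
  intro L C hL hC
  rcases Nat.eq_zero_or_pos (Fintype.card V) with h0 | hpos
  · have hE : IsEmpty V := Fintype.card_eq_zero_iff.mp h0
    have hL0 : L = ∅ := Finset.eq_empty_of_isEmpty L
    subst hL0
    simp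
  have hNpos : (0 : ℝ) < (Fintype.card V : ℝ) := by exact_mod_cast hpos
  set N : ℝ := (Fintype.card V : ℝ) with hN
  have hD : (0 : ℝ) < (d : ℝ) := by exact_mod_cast hd
  set D : ℝ := (d : ℝ) with hDdef
  set l : ℝ := (L.card : ℝ) with hl'
  set c : ℝ := (C.card : ℝ) with hc'
  have hl0 : 0 ≤ l := Nat.cast_nonneg _
  have hc0 : 0 ≤ c := Nat.cast_nonneg _
  have hcl : c ≤ 12 * l := by
    have : ((C.card : ℕ) : ℝ) ≤ (((4 + 4 * 2) * L.card : ℕ) : ℝ) := by exact_mod_cast hC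
    push_cast at this
    rw [hc', hl']
    linarith
  have hLI : 2 * l ≤ 2 ^ I := by
    have : ((2 * L.card : ℕ) : ℝ) ≤ ((2 ^ I : ℕ) : ℝ) := by exact_mod_cast hL
    push_cast at this
    exact this
  have hdl : D * l ≤ lam * N := by
    have : D * (2 * l) ≤ D * 2 ^ I := mul_le_mul_of_nonneg_left hLI hD.le
    linarith
  set e : V → ℝ := fun x => ((G.neighborFinset x ∩ L).card : ℝ) with he
  have he0 : ∀ x, 0 ≤ e x := fun x => Nat.cast_nonneg _
  have hS1 : ∑ x, e x = D * l := sum_e G hreg L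
  -- edges into `C`
  have hsq : Real.sqrt (l * c) ≤ 3.5 * l := by
    rw [Real.sqrt_le_iff]
    constructor
    · positivity
    · nlinarith [mul_le_mul_of_nonneg_left hcl hl0]
  have hEC : ∑ x ∈ C, e x ≤ 15.5 * (lam * l) := by
    have hm := (abs_le.mp (spec_mixing G hreg hl h L C)).2
    have hm' : N * ∑ x ∈ C, e x ≤ N * (15.5 * (lam * l)) := by
      have h1 : N * ∑ x ∈ C, e x ≤ D * l * c + lam * Real.sqrt (l * c) * N := by linarith
      have h2 : D * l * c ≤ lam * N * (12 * l) := by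
        calc D * l * c ≤ (lam * N) * c := mul_le_mul_of_nonneg_right hdl hc0
          _ ≤ lam * N * (12 * l) := mul_le_mul_of_nonneg_left hcl (by positivity)
      have h3 : lam * Real.sqrt (l * c) * N ≤ lam * (3.5 * l) * N := by
        apply mul_le_mul_of_nonneg_right _ hNpos.le
        exact mul_le_mul_of_nonneg_left hsq hl
      nlinarith
    exact le_of_mul_le_mul_left hm' hNpos
  have hS2 : ∑ x, e x ^ 2 ≤ D * l * lam + lam ^ 2 * l := by
    have hn := spec_norm G hreg h L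
    have hn' : N * ∑ x, e x ^ 2 ≤ N * (D * l * lam + lam ^ 2 * l) := by
      have h1 : D ^ 2 * l ^ 2 ≤ (D * l) * (lam * N) := by
        have : (D * l) * (D * l) ≤ (D * l) * (lam * N) :=
          mul_le_mul_of_nonneg_left hdl (by positivity)
        nlinarith
      have h2 : N * ∑ x, e x ^ 2 ≤ D ^ 2 * l ^ 2 + lam ^ 2 * l * N := hn
      nlinarith
    exact le_of_mul_le_mul_left hn' hNpos
  -- main estimate
  set p : ℝ := 8 / D with hp
  have hp0 : 0 ≤ p := by positivity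
  have hpD : p * D = 8 := by rw [hp]; field_simp
  have hplam : p * lam ≤ 8 / 25 := by
    have : p * (25 * lam) ≤ p * D := mul_le_mul_of_nonneg_left h25 hp0
    linarith
  have hplam0 : 0 ≤ p * lam := by positivity
  have hlow : ∑ x ∈ Cᶜ, (p * e x - (p * e x) ^ 2 / 4) ≤ ∑ x ∈ Cᶜ, min 1 (p * e x) :=
    Finset.sum_le_sum (fun x _ => min_one_ge _)
  have hsplit : ∑ x ∈ Cᶜ, e x = D * l - ∑ x ∈ C, e x := by
    have := Finset.sum_compl_add_sum C e
    linarith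
  have hsq2 : ∑ x ∈ Cᶜ, e x ^ 2 ≤ ∑ x, e x ^ 2 :=
    Finset.sum_le_sum_of_subset_of_nonneg (Finset.subset_univ _) (fun _ _ _ => sq_nonneg _)
  have hexp : ∑ x ∈ Cᶜ, (p * e x - (p * e x) ^ 2 / 4)
      = p * ∑ x ∈ Cᶜ, e x - p ^ 2 / 4 * ∑ x ∈ Cᶜ, e x ^ 2 := by
    rw [Finset.sum_sub_distrib, Finset.mul_sum, Finset.mul_sum]
    congr 1
    apply Finset.sum_congr rfl
    intro x _
    ring
  have hmain : 2 * l ≤ p * ∑ x ∈ Cᶜ, e x - p ^ 2 / 4 * ∑ x ∈ Cᶜ, e x ^ 2 := by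
    have a1 : p * ∑ x ∈ Cᶜ, e x ≥ 8 * l - 15.5 * (p * lam) * l := by
      rw [hsplit]
      have : p * ∑ x ∈ C, e x ≤ p * (15.5 * (lam * l)) := mul_le_mul_of_nonneg_left hEC hp0
      have e1 : p * (D * l) = 8 * l := by rw [← mul_assoc, hpD]
      nlinarith
    have a2 : p ^ 2 / 4 * ∑ x ∈ Cᶜ, e x ^ 2 ≤ 2 * (p * lam) * l + (p * lam) ^ 2 / 4 * l := by
      have b1 : p ^ 2 / 4 * ∑ x ∈ Cᶜ, e x ^ 2 ≤ p ^ 2 / 4 * (D * l * lam + lam ^ 2 * l) :=
        mul_le_mul_of_nonneg_left (hsq2.trans hS2) (by positivity)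
      have b2 : p ^ 2 / 4 * (D * l * lam + lam ^ 2 * l)
          = (p * D) * (p * lam) / 4 * l + (p * lam) ^ 2 / 4 * l := by ring
      rw [b2, hpD] at b1
      linarith
    have a3 : (p * lam) * l ≤ 8 / 25 * l := mul_le_mul_of_nonneg_right hplam hl0
    have a4 : (p * lam) ^ 2 * l ≤ (8 / 25) ^ 2 * l := by
      apply mul_le_mul_of_nonneg_right _ hl0
      exact pow_le_pow_left₀ hplam0 hplam 2
    nlinarith
  have hcast : ((2 * L.card : ℕ) : ℝ) = 2 * l := by push_cast; rfl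
  rw [hcast]
  calc 2 * l ≤ p * ∑ x ∈ Cᶜ, e x - p ^ 2 / 4 * ∑ x ∈ Cᶜ, e x ^ 2 := hmain
    _ = ∑ x ∈ Cᶜ, (p * e x - (p * e x) ^ 2 / 4) := hexp.symm
    _ ≤ ∑ x ∈ Cᶜ, min 1 (p * e x) := hlow

end Vale.Agent.Lib.P308E
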