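import Vale.Agent.Lib.P308E.Comb
import Vale.Agent.Lib.P308E.Spec2A
import Vale.Agent.Lib.P308E.Spec2B

namespace Vale.Agent.Lib.P308E

open Finset

variable {V : Type*} [Fintype V] [DecidableEq V] (G : SimpleGraph V) [DecidableRel G.Adj]

/-- Fractional expansion is trivial for `I = 0`. -/
theorem fracExp_zero {p : ℝ} (hp : 0 ≤ p) : FracExp G p 2 0 := by
  intro L C hL _
  have h0 : L.card = 0 := by
    rw [pow_zero] at hL
    omega
  rw [h0]
  simp only [mul_zero, Nat.cast_zero]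
  apply Finset.sum_nonneg
  intro x _
  apply le_min zero_le_one
  positivity

theorem final {d : ℕ} (hd : 0 < d) (hreg : G.IsRegularOfDegree d) {lam : ℝ} (hl : 0 ≤ lam)
    (h : SpecBound G lam) (h25 : 25 * lam ≤ d) :
    {M : G.Subgraph | M.IsMatching ∧ (M.vertsᶜ).ncard = 2}.ncard
      ≤ (Fintype.card V) ^ 7 * {M : G.Subgraph | M.IsPerfectMatching}.ncard := by
  obtain ⟨N, hN⟩ : ∃ N : ℕ, N = Fintype.card V := ⟨_, rfl⟩
  obtain ⟨A, hA⟩ : ∃ A : ℕ,
      A = {M : G.Subgraph | M.IsMatching ∧ (M.vertsᶜ).ncard = 2}.ncard := ⟨_, rfl⟩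
  obtain ⟨B, hB⟩ : ∃ B : ℕ, B = {M : G.Subgraph | M.IsPerfectMatching}.ncard := ⟨_, rfl⟩
  rw [← hN, ← hA, ← hB]
  have hdR : (0 : ℝ) < d := by exact_mod_cast hd
  have hdeg : ∀ v, G.degree v ≤ d := fun v => (hreg v).le
  have hp : (0 : ℝ) < 8 / d := by positivity
  have hpd : (8 / (d : ℝ)) * d = 8 := by field_simp
  -- the number of layers
  have hex : ∃ I : ℕ, lam * N < d * 2 ^ I := by
    obtain ⟨I, hI⟩ := pow_unbounded_of_one_lt (lam * N / d) (one_lt_two : (1 : ℝ) < 2)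
    refine ⟨I, ?_⟩
    rw [div_lt_iff₀ hdR] at hI
    linarith
  classical
  obtain ⟨I, hI, hmin⟩ : ∃ I : ℕ, lam * N < d * 2 ^ I ∧ ∀ J < I, ¬ lam * N < d * 2 ^ J :=
    ⟨Nat.find hex, Nat.find_spec hex, fun J hJ => Nat.find_min hex hJ⟩
  have hjoin : Joined G (2 ^ I) := by
    apply spec_joined G hreg hl h
    rw [← hN]
    push_cast
    exact hI
  have key : (A : ℝ) ≤ (N : ℝ) ^ 6 * ((N : ℝ) * B) := by
    rcases Nat.eq_zero_or_pos I with h0 | hpos
    · subst h0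
      have := comb_main G hp d 2 0 hdeg le_rfl (fracExp_zero G hp.le) hjoin
      rw [← hN, ← hA, ← hB] at this
      simp only [mul_zero, pow_zero, one_mul] at this
      rcases Nat.eq_zero_or_pos N with hN0 | hNpos
      · rw [hN0] at this ⊢
        simpa using this
      · have h1 : (1 : ℝ) ≤ N := by exact_mod_cast hNpos
        have h6 : (1 : ℝ) ≤ (N : ℝ) ^ 6 := one_le_pow₀ h1
        have hnb : (0 : ℝ) ≤ (N : ℝ) * B := by positivity
        nlinarith
    · obtain ⟨k, rfl⟩ : ∃ k, I = k + 1 := ⟨I - 1, by omega⟩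
      have hk := hmin k (Nat.lt_succ_self k)
      rw [not_lt] at hk
      have hI2 : (d : ℝ) * 2 ^ (k + 1) ≤ 2 * (lam * N) := by
        rw [pow_succ]; linarith
      have hfe : FracExp G (8 / d) 2 (k + 1) := by
        apply spec_fracExp G hd hreg hl h h25
        rw [← hN]; exact hI2
      have := comb_main G hp d 2 (k + 1) hdeg le_rfl hfe hjoin
      rw [← hN, ← hA, ← hB, hpd] at this
      have h2N : (2 : ℝ) ^ (k + 1) ≤ N := by
        have hNn : (0 : ℝ) ≤ N := by positivity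
        have h3 : (d : ℝ) * 2 ^ (k + 1) ≤ d * N := by
          have : 2 * (lam * N) ≤ d * N := by nlinarith
          linarith
        exact le_of_mul_le_mul_left h3 hdR
      have h8 : (8 : ℝ) ^ (2 * (k + 1)) = ((2 : ℝ) ^ (k + 1)) ^ 6 := by
        have : (8 : ℝ) = 2 ^ 3 := by norm_num
        rw [this, ← pow_mul, ← pow_mul]
        congr 1
        ring
      rw [h8] at this
      have h6 : ((2 : ℝ) ^ (k + 1)) ^ 6 ≤ (N : ℝ) ^ 6 :=
        pow_le_pow_left₀ (by positivity) h2N 6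
      have hnb : (0 : ℝ) ≤ (N : ℝ) * B := by positivity
      calc (A : ℝ) ≤ ((2 : ℝ) ^ (k + 1)) ^ 6 * ((N : ℝ) * B) := this
        _ ≤ (N : ℝ) ^ 6 * ((N : ℝ) * B) := mul_le_mul_of_nonneg_right h6 hnb
  have key2 : (A : ℝ) ≤ ((N ^ 7 * B : ℕ) : ℝ) := by
    push_cast
    calc (A : ℝ) ≤ (N : ℝ) ^ 6 * ((N : ℝ) * B) := key
      _ = (N : ℝ) ^ 7 * B := by ring
  exact_mod_cast key2

end Vale.Agent.Lib.P308E
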