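import Vale.Agent.Lib.P308E.Defs

namespace Vale.Agent.Lib.P308E

open Finset Vale.Agent.Lib.P308

variable {V : Type*} [Fintype V] [DecidableEq V] (G : SimpleGraph V) [DecidableRel G.Adj]

theorem wt_nonneg {p : ℝ} (hp : 0 ≤ p) (σ : V → V) (k : ℕ) (C : Finset V) (a b : V) :
    0 ≤ wt G p σ k C a b := by
  induction k generalizing C a b with
  | zero =>
    simp only [wt]
    split_ifs
    · exact hp
    · exact le_refl _
  | succ k ih =>
    simp only [wt]
    exact Finset.sum_nonneg fun x _ => mul_nonneg hp (ih _ _ _)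

theorem wt_anti {p : ℝ} (hp : 0 ≤ p) (σ : V → V) (k : ℕ) {C C' : Finset V} (h : C ⊆ C')
    (a b : V) : wt G p σ k C' a b ≤ wt G p σ k C a b := by
  induction k generalizing C C' a b with
  | zero =>
    simp only [wt]
    exact le_refl _
  | succ k ih =>
    simp only [wt]
    calc ∑ x ∈ G.neighborFinset a \ C', p * wt G p σ k (C' ∪ {x, σ x}) b (σ x)
        ≤ ∑ x ∈ G.neighborFinset a \ C', p * wt G p σ k (C ∪ {x, σ x}) b (σ x) := by
          apply Finset.sum_le_sum
          intro x _
          exact mul_le_mul_of_nonneg_left (ih (Finset.union_subset_union_left h) _ _) hp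
      _ ≤ ∑ x ∈ G.neighborFinset a \ C, p * wt G p σ k (C ∪ {x, σ x}) b (σ x) := by
          apply Finset.sum_le_sum_of_subset_of_nonneg
          · exact Finset.sdiff_subset_sdiff (Finset.Subset.refl _) h
          · intro x _ _
            exact mul_nonneg hp (wt_nonneg G hp σ k _ _ _)

end Vale.Agent.Lib.P308E
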