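import Mathlib

namespace Vale.Agent.Lib.P308E

open Finset

/-- an initial segment for `G` of any admissible size. -/
theorem exists_initial_segment {ι : Type*} [DecidableEq ι] (S : Finset ι) (G : ι → ℝ) (t : ℕ)
    (ht : t ≤ S.card) :
    ∃ Y ⊆ S, Y.card = t ∧ ∀ x ∈ Y, ∀ z ∈ S \ Y, G x ≤ G z := by
  induction t with
  | zero => exact ⟨∅, by simp, by simp, by simp⟩
  | succ t ih =>
    obtain ⟨Y, hYS, hYc, hY⟩ := ih (by omega)
    have hne : (S \ Y).Nonempty := by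
      rw [← Finset.card_pos, Finset.card_sdiff_of_subset hYS]
      omega
    obtain ⟨z0, hz0, hmin⟩ := Finset.exists_min_image (S \ Y) G hne
    have hz0S : z0 ∈ S := (Finset.mem_sdiff.mp hz0).1
    have hz0Y : z0 ∉ Y := (Finset.mem_sdiff.mp hz0).2
    refine ⟨insert z0 Y, ?_, ?_, ?_⟩
    · intro x hx
      rcases Finset.mem_insert.mp hx with rfl | hx
      · exact hz0S
      · exact hYS hx
    · rw [Finset.card_insert_of_notMem hz0Y, hYc]
    · intro x hx z hz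
      have hz' : z ∈ S \ Y := by
        rw [Finset.mem_sdiff] at hz ⊢
        exact ⟨hz.1, fun h => hz.2 (Finset.mem_insert_of_mem h)⟩
      rcases Finset.mem_insert.mp hx with rfl | hx
      · exact hmin z hz'
      · exact hY x hx z hz'

/-- Fractional selection: a weight vector in `[0,1]^S` of total mass at least `t` dominates
(against any nonnegative `G`) the indicator of some `t`-subset. -/
theorem exists_subset_card_sum_le {ι : Type*} [DecidableEq ι] (S : Finset ι) (m G : ι → ℝ) (t : ℕ)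
    (hm0 : ∀ x ∈ S, 0 ≤ m x) (hm1 : ∀ x ∈ S, m x ≤ 1) (hG : ∀ x ∈ S, 0 ≤ G x)
    (ht : (t : ℝ) ≤ ∑ x ∈ S, m x) :
    ∃ Y ⊆ S, Y.card = t ∧ ∑ x ∈ Y, G x ≤ ∑ x ∈ S, m x * G x := by
  have htS : t ≤ S.card := by
    have h1 : ∑ x ∈ S, m x ≤ ∑ _x ∈ S, (1 : ℝ) := Finset.sum_le_sum hm1
    rw [Finset.sum_const, nsmul_eq_mul, mul_one] at h1
    exact_mod_cast ht.trans h1
  obtain ⟨Y, hYS, hYc, hY⟩ := exists_initial_segment S G t htS
  refine ⟨Y, hYS, hYc, ?_⟩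
  rcases Y.eq_empty_or_nonempty with rfl | hne
  · simp only [Finset.sum_empty]
    exact Finset.sum_nonneg fun x hx => mul_nonneg (hm0 x hx) (hG x hx)
  obtain ⟨x0, hx0, hmax⟩ := Finset.exists_max_image Y G hne
  set τ := G x0 with hτ
  have hτ0 : 0 ≤ τ := hG x0 (hYS hx0)
  have hs1 : ∑ x ∈ S, m x * G x = ∑ x ∈ S \ Y, m x * G x + ∑ x ∈ Y, m x * G x :=
    (Finset.sum_sdiff hYS).symm
  have hs2 : ∑ x ∈ S, m x = ∑ x ∈ S \ Y, m x + ∑ x ∈ Y, m x := (Finset.sum_sdiff hYS).symm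
  have h1 : τ * ∑ x ∈ S \ Y, m x ≤ ∑ x ∈ S \ Y, m x * G x := by
    rw [Finset.mul_sum]
    apply Finset.sum_le_sum
    intro z hz
    have := hY x0 hx0 z hz
    have hmz := hm0 z (Finset.mem_sdiff.mp hz).1
    nlinarith
  have h2 : ∑ x ∈ Y, (1 - m x) * G x ≤ τ * ∑ x ∈ Y, (1 - m x) := by
    rw [Finset.mul_sum]
    apply Finset.sum_le_sum
    intro x hx
    have := hmax x hx
    have hmx := hm1 x (hYS hx)
    nlinarith
  have h3 : ∑ x ∈ Y, (1 - m x) * G x = ∑ x ∈ Y, G x - ∑ x ∈ Y, m x * G x := by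
    rw [← Finset.sum_sub_distrib]
    apply Finset.sum_congr rfl
    intro x _
    ring
  have h4 : ∑ x ∈ Y, (1 - m x) = (t : ℝ) - ∑ x ∈ Y, m x := by
    rw [Finset.sum_sub_distrib, Finset.sum_const, nsmul_eq_mul, mul_one, hYc]
  rw [h3, h4] at h2
  rw [hs2] at ht
  rw [hs1]
  nlinarith

/-- Fractional selection: a fractional set `m` of total mass at least `t` weighs at least as much
as the lightest `t`-subset. -/
theorem rearr {ι : Type*} [DecidableEq ι] (U : Finset ι) (m W : ι → ℝ) (t : ℕ) (Φ : ℝ)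
    (hm0 : ∀ x ∈ U, 0 ≤ m x) (hm1 : ∀ x ∈ U, m x ≤ 1) (hW : ∀ x ∈ U, 0 ≤ W x)
    (hsum : (t : ℝ) ≤ ∑ x ∈ U, m x)
    (hΦ : ∀ Y ⊆ U, Y.card = t → Φ ≤ ∑ x ∈ Y, W x) :
    Φ ≤ ∑ x ∈ U, m x * W x := by
  obtain ⟨Y, hYU, hYc, hY⟩ := exists_subset_card_sum_le U m W t hm0 hm1 hW hsum
  exact (hΦ Y hYU hYc).trans hY

end Vale.Agent.Lib.P308E
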