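import Vale.Agent.Lib.P308E.LowerA
import Vale.Agent.Lib.P308E.Rearr

namespace Vale.Agent.Lib.P308E

open Finset Vale.Agent.Lib.P308

variable {V : Type*} [Fintype V] [DecidableEq V] (G : SimpleGraph V) [DecidableRel G.Adj]

/-- One round of layer growth. -/
theorem wtS_step {p : ℝ} (hp : 0 ≤ p) (σ : V → V) (hσ : ∀ z, σ (σ z) = z) (k : ℕ)
    (C L L' : Finset V) (t : ℕ) (Φ : ℝ)
    (hfrac : (t : ℝ) ≤ ∑ x ∈ Cᶜ, min 1 (p * ((G.neighborFinset x ∩ L).card : ℝ)))
    (hIH : ∀ Y ⊆ Cᶜ, Y.card = t → Φ ≤ wtS G p σ k (C ∪ Y ∪ Y.image σ) L' (Y.image σ)) :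
    Φ ≤ wtS G p σ (k + 1) C L L' := by
  classical
  obtain ⟨W, hW⟩ : ∃ W : V → ℝ, W = fun x => ∑ b ∈ L', wt G p σ k (C ∪ {x, σ x}) b (σ x) :=
    ⟨_, rfl⟩
  have hW0 : ∀ x, 0 ≤ W x := by
    intro x; rw [hW]; exact Finset.sum_nonneg fun b _ => wt_nonneg G hp σ k _ _ _
  have σinj : Function.Injective σ := fun x y hxy => by
    have := congrArg σ hxy; rwa [hσ, hσ] at this
  have hexp : wtS G p σ (k + 1) C L L'
      = ∑ x ∈ Cᶜ, (p * ((G.neighborFinset x ∩ L).card : ℝ)) * W x := by
    unfold wtS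
    simp only [wt]
    have h1 : ∀ a, ∑ b ∈ L', ∑ x ∈ G.neighborFinset a \ C, p * wt G p σ k (C ∪ {x, σ x}) b (σ x)
        = ∑ x ∈ Cᶜ, if G.Adj a x then p * W x else 0 := by
      intro a
      rw [Finset.sum_comm, ← Finset.sum_filter]
      have hset : G.neighborFinset a \ C = Cᶜ.filter (fun x => G.Adj a x) := by
        ext x
        simp [and_comm]
      rw [hset]
      apply Finset.sum_congr rfl
      intro x _
      rw [hW, Finset.mul_sum]
    rw [Finset.sum_congr rfl (fun a _ => h1 a), Finset.sum_comm]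
    apply Finset.sum_congr rfl
    intro x _
    rw [← Finset.sum_filter, Finset.sum_const, nsmul_eq_mul]
    have hset : L.filter (fun a => G.Adj a x) = G.neighborFinset x ∩ L := by
      ext a
      simp [and_comm, G.adj_comm]
    rw [hset]
    ring
  rw [hexp]
  have hr := rearr Cᶜ (fun x => min 1 (p * ((G.neighborFinset x ∩ L).card : ℝ))) W t Φ
    (fun x _ => le_min zero_le_one (mul_nonneg hp (Nat.cast_nonneg _)))
    (fun x _ => min_le_left _ _) (fun x _ => hW0 x) hfrac ?_
  · refine le_trans hr ?_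
    apply Finset.sum_le_sum
    intro x _
    exact mul_le_mul_of_nonneg_right (min_le_right _ _) (hW0 x)
  · intro Y hY hcard
    refine le_trans (hIH Y hY hcard) ?_
    unfold wtS
    rw [Finset.sum_comm, Finset.sum_image (fun x _ y _ h => σinj h)]
    apply Finset.sum_le_sum
    intro x hx
    rw [hW]
    apply Finset.sum_le_sum
    intro b _
    apply wt_anti G hp
    intro z hz
    simp only [Finset.mem_union, Finset.mem_insert, Finset.mem_singleton] at hz
    simp only [Finset.mem_union, Finset.mem_image]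
    rcases hz with hz | hz | hz
    · exact Or.inl (Or.inl hz)
    · exact Or.inl (Or.inr (hz ▸ hx))
    · exact Or.inr ⟨x, hx, hz.symm⟩

end Vale.Agent.Lib.P308E
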