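import Vale.Agent.Lib.P308E.LowerB

namespace Vale.Agent.Lib.P308E

open Finset Vale.Agent.Lib.P308

variable {V : Type*} [Fintype V] [DecidableEq V] (G : SimpleGraph V) [DecidableRel G.Adj]

theorem wt_lower {p : ℝ} (hp : 0 ≤ p) (σ : V → V) (hσ : ∀ z, σ (σ z) = z) (g I : ℕ)
    (hg : 2 ≤ g) (h1 : FracExp G p g I) (h2 : Joined G (g ^ I)) (a b : V) :
    p ≤ wt G p σ (2 * I) {a, b} a b := by
  classical
  have σinj : Function.Injective σ := fun x y hxy => by
    have := congrArg σ hxy; rwa [hσ, hσ] at this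
  have stepL : ∀ (k : ℕ) (C L L' : Finset V) (i : ℕ), L.card = g ^ i → i + 1 ≤ I →
      L'.card ≤ g * L.card → C.card ≤ 4 * L.card + 4 * L'.card →
      (∀ C2 L2 : Finset V, L2.card = g ^ (i + 1) → C2.card ≤ 4 * L'.card + 4 * L2.card →
        p ≤ wtS G p σ k C2 L' L2) → p ≤ wtS G p σ (k + 1) C L L' := by
    intro k C L L' i hL hi hL' hC hnext
    have hgL : g * L.card = g ^ (i + 1) := by rw [hL, pow_succ]; ring
    apply wtS_step G hp σ hσ k C L L' (g * L.card) p
    · apply h1 L C
      · rw [hgL]; exact Nat.pow_le_pow_right (by omega) hi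
      · calc C.card ≤ 4 * L.card + 4 * L'.card := hC
          _ ≤ 4 * L.card + 4 * (g * L.card) := by omega
          _ = (4 + 4 * g) * L.card := by ring
    · intro Y _ hY
      have hcard : (Y.image σ).card = g ^ (i + 1) := by
        rw [Finset.card_image_of_injective _ σinj, hY, hgL]
      apply hnext _ _ hcard
      have c1 : (C ∪ Y ∪ Y.image σ).card ≤ C.card + Y.card + (Y.image σ).card :=
        le_trans (Finset.card_union_le _ _) (Nat.add_le_add_right (Finset.card_union_le _ _) _)
      have c2 : 2 * L.card ≤ g * L.card := Nat.mul_le_mul_right _ hg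
      rw [hcard] at c1 ⊢
      rw [hY, hgL] at c1
      rw [hgL] at c2
      omega
  have hev0 : ∀ C L L' : Finset V, L.card = g ^ I → L'.card = g ^ I →
      p ≤ wtS G p σ 0 C L L' := by
    intro C L L' hL hL'
    obtain ⟨x, hx, y, hy, hxy⟩ := h2 L L' hL hL'
    unfold wtS
    have e1 : p ≤ ∑ b ∈ L', wt G p σ 0 C x b := by
      have : wt G p σ 0 C x y = p := by simp [wt, hxy]
      calc p = wt G p σ 0 C x y := this.symm
        _ ≤ _ := Finset.single_le_sum (f := fun b => wt G p σ 0 C x b)
          (fun b _ => wt_nonneg G hp σ 0 C x b) hy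
    refine le_trans e1 ?_
    exact Finset.single_le_sum (f := fun a => ∑ b ∈ L', wt G p σ 0 C a b)
      (fun a _ => Finset.sum_nonneg fun b _ => wt_nonneg G hp σ 0 C a b) hx
  have key : ∀ j,
      (∀ i, i + j = I → ∀ C L L' : Finset V, L.card = g ^ i → L'.card = g ^ i →
        C.card ≤ 4 * L.card + 4 * L'.card → p ≤ wtS G p σ (2 * j) C L L') ∧
      (∀ i, i + 1 + j = I → ∀ C L L' : Finset V, L.card = g ^ i → L'.card = g ^ (i + 1) →
        C.card ≤ 4 * L.card + 4 * L'.card → p ≤ wtS G p σ (2 * j + 1) C L L') := by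
    have oddOf : ∀ j,
        (∀ i, i + j = I → ∀ C L L' : Finset V, L.card = g ^ i → L'.card = g ^ i →
          C.card ≤ 4 * L.card + 4 * L'.card → p ≤ wtS G p σ (2 * j) C L L') →
        (∀ i, i + 1 + j = I → ∀ C L L' : Finset V, L.card = g ^ i → L'.card = g ^ (i + 1) →
          C.card ≤ 4 * L.card + 4 * L'.card → p ≤ wtS G p σ (2 * j + 1) C L L') := by
      intro j hev i hi C L L' hL hL' hC
      apply stepL (2 * j) C L L' i hL (by omega) _ hC
      · intro C2 L2 hL2 hC2
        exact hev (i + 1) (by omega) C2 L' L2 hL' hL2 hC2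
      · rw [hL, hL', pow_succ]; exact le_of_eq (by ring)
    intro j
    induction j with
    | zero =>
      have hev : ∀ i, i + 0 = I → ∀ C L L' : Finset V, L.card = g ^ i → L'.card = g ^ i →
          C.card ≤ 4 * L.card + 4 * L'.card → p ≤ wtS G p σ (2 * 0) C L L' := by
        intro i hi C L L' hL hL' _
        have : i = I := by omega
        subst this
        exact hev0 C L L' hL hL'
      exact ⟨hev, oddOf 0 hev⟩
    | succ j ih =>
      have hev : ∀ i, i + (j + 1) = I → ∀ C L L' : Finset V, L.card = g ^ i → L'.card = g ^ i →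
          C.card ≤ 4 * L.card + 4 * L'.card → p ≤ wtS G p σ (2 * (j + 1)) C L L' := by
        intro i hi C L L' hL hL' hC
        have e : 2 * (j + 1) = (2 * j + 1) + 1 := by ring
        rw [e]
        apply stepL (2 * j + 1) C L L' i hL (by omega) _ hC
        · intro C2 L2 hL2 hC2
          exact ih.2 i (by omega) C2 L' L2 hL' hL2 hC2
        · rw [hL, hL']
          calc g ^ i = 1 * g ^ i := by ring
            _ ≤ g * g ^ i := Nat.mul_le_mul_right _ (by omega)
      exact ⟨hev, oddOf (j + 1) hev⟩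
  have hfin := (key I).1 0 (by omega) {a, b} {a} {b} (by simp) (by simp) (by
    have : ({a, b} : Finset V).card ≤ 2 := Finset.card_le_two
    simp only [Finset.card_singleton]
    omega)
  simpa [wtS] using hfin

end Vale.Agent.Lib.P308E
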