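import Vale.Agent.Lib.P308E.Defs

namespace Vale.Agent.Lib.P308E

open Finset Vale.Agent.Lib.P308

variable {V : Type*} [Fintype V] [DecidableEq V] (G : SimpleGraph V) [DecidableRel G.Adj]

omit [Fintype V] in
theorem mv_self_a (σ : V → V) (a x : V) : mv σ a x a = x := by simp [mv]

omit [Fintype V] in
theorem mv_x (σ : V → V) {a x : V} (h : x ≠ a) : mv σ a x x = a := by simp [mv, h]

omit [Fintype V] in
theorem mv_y (σ : V → V) {a x : V} (h1 : σ x ≠ a) (h2 : σ x ≠ x) : mv σ a x (σ x) = σ x := by
  simp [mv, h1, h2]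

omit [Fintype V] in
theorem mv_other (σ : V → V) {a x z : V} (h1 : z ≠ a) (h2 : z ≠ x) (h3 : z ≠ σ x) :
    mv σ a x z = σ z := by
  simp [mv, h1, h2, h3]

omit [Fintype V] [DecidableEq V] [DecidableRel G.Adj] in
/-- basic facts on the vertices involved in a move. -/
theorem move_facts {σ : V → V} {a b x : V} (h : IsState G σ a b) (hx : G.Adj a x) (hxb : x ≠ b) :
    x ≠ a ∧ σ x ≠ x ∧ σ x ≠ a ∧ σ x ≠ b := by
  obtain ⟨⟨hinv, hadj⟩, hab, hfix⟩ := h
  have hxa : x ≠ a := hx.ne'
  have hyx : σ x ≠ x := by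
    intro hh
    rcases (hfix x).1 hh with h1 | h1
    · exact hxa h1
    · exact hxb h1
  have hfa : σ a = a := (hfix a).2 (Or.inl rfl)
  have hfb : σ b = b := (hfix b).2 (Or.inr rfl)
  refine ⟨hxa, hyx, ?_, ?_⟩
  · intro hh
    have : σ (σ x) = σ a := by rw [hh]
    rw [hinv, hfa] at this
    exact hxa this
  · intro hh
    have : σ (σ x) = σ b := by rw [hh]
    rw [hinv, hfb] at this
    exact hxb this

omit [Fintype V] [DecidableRel G.Adj] in
/-- A move leads from a state to a state (with the roles of the holes exchanged). -/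
theorem isState_mv {σ : V → V} {a b x : V} (h : IsState G σ a b) (hx : G.Adj a x) (hxb : x ≠ b) :
    IsState G (mv σ a x) b (σ x) := by
  obtain ⟨hxa, hyx, hya, hyb⟩ := move_facts G h hx hxb
  obtain ⟨⟨hinv, hadj⟩, hab, hfix⟩ := h
  have hfa : σ a = a := (hfix a).2 (Or.inl rfl)
  have hinj : ∀ u v, σ u = σ v → u = v := by
    intro u v huv
    have : σ (σ u) = σ (σ v) := by rw [huv]
    rwa [hinv, hinv] at this
  refine ⟨⟨?_, ?_⟩, fun hh => hyb hh.symm, ?_⟩
  · intro z
    by_cases h1 : z = a
    · subst h1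
      rw [mv_self_a, mv_x σ hxa]
    by_cases h2 : z = x
    · subst h2
      rw [mv_x σ hxa, mv_self_a]
    by_cases h3 : z = σ x
    · subst h3
      rw [mv_y σ hya hyx, mv_y σ hya hyx]
    rw [mv_other σ h1 h2 h3]
    have k1 : σ z ≠ a := by
      intro hh
      apply h1
      apply hinj
      rw [hh, hfa]
    have k2 : σ z ≠ x := by
      intro hh
      apply h3
      rw [← hh, hinv]
    have k3 : σ z ≠ σ x := fun hh => h2 (hinj _ _ hh)
    rw [mv_other σ k1 k2 k3, hinv]
  · intro z hz
    by_cases h1 : z = a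
    · subst h1
      rw [mv_self_a]
      exact hx
    by_cases h2 : z = x
    · subst h2
      rw [mv_x σ hxa]
      exact hx.symm
    by_cases h3 : z = σ x
    · subst h3
      exact absurd (mv_y σ hya hyx) hz
    rw [mv_other σ h1 h2 h3] at hz ⊢
    exact hadj z hz
  · intro z
    by_cases h1 : z = a
    · subst h1
      rw [mv_self_a]
      constructor
      · intro hh
        exact absurd hh hxa
      · rintro (hh | hh)
        · exact absurd hh hab
        · exact absurd hh.symm hya
    by_cases h2 : z = x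
    · subst h2
      rw [mv_x σ hxa]
      constructor
      · intro hh
        exact absurd hh.symm hxa
      · rintro (hh | hh)
        · exact absurd hh hxb
        · exact absurd hh.symm hyx
    by_cases h3 : z = σ x
    · subst h3
      rw [mv_y σ hya hyx]
      simp
    rw [mv_other σ h1 h2 h3, hfix z]
    constructor
    · rintro (hh | hh)
      · exact absurd hh h1
      · exact Or.inl hh
    · rintro (hh | hh)
      · exact Or.inr hh
      · exact absurd hh h3

omit [Fintype V] [DecidableEq V] [DecidableRel G.Adj] in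
/-- In the new state `x` is a neighbour of the new (second) hole `σ x`. -/
theorem adj_mv {σ : V → V} {a b x : V} (h : IsState G σ a b) (hx : G.Adj a x) (hxb : x ≠ b) :
    G.Adj (σ x) x := by
  obtain ⟨hxa, hyx, hya, hyb⟩ := move_facts G h hx hxb
  exact (h.1.2 x hyx).symm

omit [Fintype V] [DecidableRel G.Adj] in
/-- The move can be undone: the old state is determined by the new state and `x`. -/
theorem mv_inj {σ σ' : V → V} {a a' b x : V} (h : IsState G σ a b) (h' : IsState G σ' a' b)
    (hx : G.Adj a x) (hx' : G.Adj a' x) (hxb : x ≠ b)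
    (h1 : mv σ a x = mv σ' a' x) (h2 : σ x = σ' x) : σ = σ' ∧ a = a' := by
  obtain ⟨hxa, hyx, hya, hyb⟩ := move_facts G h hx hxb
  obtain ⟨hxa', hyx', hya', hyb'⟩ := move_facts G h' hx' hxb
  have haa : a = a' := by
    have := congrFun h1 x
    rwa [mv_x σ hxa, mv_x σ' hxa'] at this
  subst haa
  refine ⟨?_, rfl⟩
  funext z
  by_cases k1 : z = a
  · subst k1
    rw [(h.2.2 z).2 (Or.inl rfl), (h'.2.2 z).2 (Or.inl rfl)]
  by_cases k2 : z = x
  · subst k2
    exact h2
  by_cases k3 : z = σ x
  · subst k3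
    rw [h.1.1 x, h2, h'.1.1 x]
  have := congrFun h1 z
  rwa [mv_other σ k1 k2 k3, mv_other σ' k1 k2 (h2 ▸ k3)] at this

end Vale.Agent.Lib.P308E
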