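import Vale.Agent.Lib.P308E.Defs

namespace Vale.Agent.Lib.P308E

open Finset Vale.Agent.Lib.P308

variable {V : Type*} [Fintype V] [DecidableEq V] (G : SimpleGraph V) [DecidableRel G.Adj]

/-- The centred indicator function of `L`. -/
noncomputable def cen (L : Finset V) (v : V) : ℝ :=
  (if v ∈ L then 1 else 0) - (L.card : ℝ) / Fintype.card V

theorem sum_ind (L : Finset V) : ∑ v, (if v ∈ L then (1 : ℝ) else 0) = L.card := by
  rw [Finset.sum_ite_mem, Finset.univ_inter]
  simp

theorem cen_sum (L : Finset V) : ∑ v, cen L v = 0 := by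
  unfold cen
  rw [Finset.sum_sub_distrib, sum_ind, Finset.sum_const, Finset.card_univ, nsmul_eq_mul]
  rcases Nat.eq_zero_or_pos (Fintype.card V) with h0 | hpos
  · have hL : L.card = 0 := by
      have := Finset.card_le_univ L
      omega
    simp [hL]
  · have : (Fintype.card V : ℝ) ≠ 0 := by positivity
    field_simp
    ring

theorem cen_sq (L : Finset V) :
    ∑ v, cen L v ^ 2 = (L.card : ℝ) - (L.card : ℝ) ^ 2 / Fintype.card V := by
  have h1 : ∀ v, cen L v ^ 2 = (if v ∈ L then (1 : ℝ) else 0)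
      - 2 * ((L.card : ℝ) / Fintype.card V) * (if v ∈ L then (1 : ℝ) else 0)
      + ((L.card : ℝ) / Fintype.card V) ^ 2 := by
    intro v
    unfold cen
    split_ifs <;> ring
  rw [Finset.sum_congr rfl (fun v _ => h1 v), Finset.sum_add_distrib, Finset.sum_sub_distrib,
    ← Finset.mul_sum, sum_ind, Finset.sum_const, Finset.card_univ, nsmul_eq_mul]
  rcases Nat.eq_zero_or_pos (Fintype.card V) with h0 | hpos
  · have hL : L.card = 0 := by
      have := Finset.card_le_univ L
      omega
    simp [hL]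
  · have : (Fintype.card V : ℝ) ≠ 0 := by positivity
    field_simp
    ring

theorem cen_sq_le (L : Finset V) : ∑ v, cen L v ^ 2 ≤ (L.card : ℝ) := by
  rw [cen_sq]
  have : 0 ≤ (L.card : ℝ) ^ 2 / Fintype.card V := by positivity
  linarith

theorem card_inter_eq_sum (L : Finset V) (v : V) :
    ((G.neighborFinset v ∩ L).card : ℝ)
      = ∑ w ∈ G.neighborFinset v, (if w ∈ L then (1 : ℝ) else 0) := by
  rw [Finset.sum_ite_mem]
  simp

/-- `(A 1_L)(v) = d |L| / N + (A cen_L)(v)`. -/
theorem e_eq {d : ℕ} (hreg : G.IsRegularOfDegree d) (L : Finset V) (v : V) :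
    ((G.neighborFinset v ∩ L).card : ℝ)
      = d * L.card / Fintype.card V + ∑ w ∈ G.neighborFinset v, cen L w := by
  unfold cen
  rw [Finset.sum_sub_distrib, ← card_inter_eq_sum, Finset.sum_const, nsmul_eq_mul,
    SimpleGraph.card_neighborFinset_eq_degree, hreg v]
  ring

theorem adj_sum {d : ℕ} (hreg : G.IsRegularOfDegree d) (x : V → ℝ) :
    ∑ v, ∑ w ∈ G.neighborFinset v, x w = d * ∑ v, x v := by
  have h1 : ∀ v, ∑ w ∈ G.neighborFinset v, x w = ∑ w, if G.Adj v w then x w else 0 := by
    intro v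
    rw [← Finset.sum_filter]
    apply Finset.sum_congr _ (fun _ _ => rfl)
    ext w
    simp
  rw [Finset.sum_congr rfl (fun v _ => h1 v), Finset.sum_comm, Finset.mul_sum]
  apply Finset.sum_congr rfl
  intro w _
  rw [← Finset.sum_filter, Finset.sum_const, nsmul_eq_mul]
  congr 1
  have : (Finset.univ.filter fun v => G.Adj v w) = G.neighborFinset w := by
    ext v
    simp [SimpleGraph.adj_comm]
  rw [this, SimpleGraph.card_neighborFinset_eq_degree, hreg w]

theorem sum_e {d : ℕ} (hreg : G.IsRegularOfDegree d) (L : Finset V) :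
    ∑ v, ((G.neighborFinset v ∩ L).card : ℝ) = d * L.card := by
  rw [Finset.sum_congr rfl (fun v _ => card_inter_eq_sum G L v), adj_sum G hreg, sum_ind]

end Vale.Agent.Lib.P308E
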