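import Vale.Agent.Lib.P308E.Spec0

namespace Vale.Agent.Lib.P308E

open Finset Vale.Agent.Lib.P308

variable {V : Type*} [Fintype V] [DecidableEq V] (G : SimpleGraph V) [DecidableRel G.Adj]

/-- `N ‖A 1_L‖² ≤ d²|L|² + lam²|L| N`. -/
theorem spec_norm {d : ℕ} (hreg : G.IsRegularOfDegree d) {lam : ℝ} (h : SpecBound G lam)
    (L : Finset V) :
    (Fintype.card V : ℝ) * ∑ x, ((G.neighborFinset x ∩ L).card : ℝ) ^ 2
      ≤ (d : ℝ) ^ 2 * (L.card : ℝ) ^ 2 + lam ^ 2 * L.card * Fintype.card V := by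
  set N : ℝ := (Fintype.card V : ℝ) with hN
  set c : ℝ := d * L.card / N with hc
  set y : V → ℝ := fun v => ∑ w ∈ G.neighborFinset v, cen L w with hy
  have hN0 : 0 ≤ N := by positivity
  have hysum : ∑ v, y v = 0 := by
    rw [hy]
    simp only
    rw [adj_sum G hreg, cen_sum]
    simp
  have hy2 : ∑ v, y v ^ 2 ≤ lam ^ 2 * L.card :=
    (h _ (cen_sum L)).trans (mul_le_mul_of_nonneg_left (cen_sq_le L) (sq_nonneg _))
  have hexp : ∑ x, ((G.neighborFinset x ∩ L).card : ℝ) ^ 2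
      = N * c ^ 2 + 2 * c * ∑ v, y v + ∑ v, y v ^ 2 := by
    have h1 : ∀ x, ((G.neighborFinset x ∩ L).card : ℝ) ^ 2
        = c ^ 2 + 2 * c * y x + y x ^ 2 := by
      intro x
      rw [e_eq G hreg L x]
      ring
    rw [Finset.sum_congr rfl (fun x _ => h1 x), Finset.sum_add_distrib, Finset.sum_add_distrib,
      ← Finset.mul_sum, Finset.sum_const, Finset.card_univ, nsmul_eq_mul]
  rw [hexp, hysum]
  have hNc : N * (N * c ^ 2) ≤ (d : ℝ) ^ 2 * (L.card : ℝ) ^ 2 := by
    rcases eq_or_lt_of_le hN0 with h0 | hpos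
    · rw [← h0]
      simp only [zero_mul]
      positivity
    · have : N * c = d * L.card := by
        rw [hc]
        field_simp
      have h2 : N * (N * c ^ 2) = (N * c) ^ 2 := by ring
      rw [h2, this]
      apply le_of_eq
      ring
  have h3 : N * ∑ v, y v ^ 2 ≤ N * (lam ^ 2 * L.card) := mul_le_mul_of_nonneg_left hy2 hN0
  nlinarith [hNc, h3]

end Vale.Agent.Lib.P308E
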