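import Vale.Agent.Lib.P308E.Move

namespace Vale.Agent.Lib.P308E

open Finset Vale.Agent.Lib.P308

variable {V : Type*} [Fintype V] [DecidableEq V] (G : SimpleGraph V) [DecidableRel G.Adj]

theorem wb_nonneg {p : ℝ} (hp : 0 ≤ p) (k : ℕ) (σ : V → V) (a b : V) :
    0 ≤ wb G p k σ a b := by
  induction k generalizing σ a b with
  | zero =>
    simp only [wb]
    split_ifs
    · exact hp
    · exact le_rfl
  | succ k ih =>
    simp only [wb]
    exact Finset.sum_nonneg fun x _ => mul_nonneg hp (ih _ _ _)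

/-- Reversibility of the moves. -/
theorem wb_sum_succ_le {p : ℝ} (hp : 0 ≤ p) (d : ℕ) (hd : ∀ v, G.degree v ≤ d) (k : ℕ) :
    ∑ s ∈ States G, wb G p (k + 1) s.1 s.2.1 s.2.2
      ≤ (p * d) * ∑ s ∈ States G, wb G p k s.1 s.2.1 s.2.2 := by
  classical
  set F : ((V → V) × V × V) × V → ℝ := fun r => wb G p k r.1.1 r.1.2.1 r.1.2.2 with hF
  set φ : ((V → V) × V × V) × V → ((V → V) × V × V) × V :=
    fun q => ((mv q.1.1 q.1.2.1 q.2, q.1.2.2, q.1.1 q.2), q.2) with hφ
  set A : Finset (((V → V) × V × V) × V) :=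
    (States G ×ˢ univ).filter (fun q => q.2 ∈ (G.neighborFinset q.1.2.1).erase q.1.2.2) with hA
  set B : Finset (((V → V) × V × V) × V) :=
    (States G ×ˢ univ).filter (fun q => q.2 ∈ G.neighborFinset q.1.2.2) with hB
  have hF0 : ∀ r, 0 ≤ F r := fun r => wb_nonneg G hp k _ _ _
  have hLeft : ∑ s ∈ States G, wb G p (k + 1) s.1 s.2.1 s.2.2 = ∑ q ∈ A, p * F (φ q) := by
    rw [hA, Finset.sum_filter, Finset.sum_product]
    apply Finset.sum_congr rfl
    intro s _
    simp only [wb]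
    rw [← Finset.sum_filter]
    apply Finset.sum_congr
    · ext x; simp
    · intro x _; rfl
  have hmaps : ∀ q ∈ A, φ q ∈ B := by
    intro q hq
    simp only [hA, Finset.mem_filter, Finset.mem_product, Finset.mem_univ, and_true,
      Finset.mem_erase, SimpleGraph.mem_neighborFinset, States] at hq
    obtain ⟨hs, hxb, hadj⟩ := hq
    simp only [hB, hφ, Finset.mem_filter, Finset.mem_product, Finset.mem_univ, and_true,
      SimpleGraph.mem_neighborFinset, States, true_and]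
    exact ⟨isState_mv G hs.2 hadj hxb, adj_mv G hs.2 hadj hxb⟩
  have hinj : Set.InjOn φ A := by
    intro q hq q' hq' hqq
    simp only [hA, Finset.coe_filter, Finset.mem_product, Finset.mem_univ, and_true,
      Finset.mem_erase, SimpleGraph.mem_neighborFinset, States, Finset.mem_filter,
      Set.mem_setOf_eq, true_and] at hq hq'
    obtain ⟨hs, hxb, hadj⟩ := hq
    obtain ⟨hs', hxb', hadj'⟩ := hq'
    obtain ⟨⟨σ, a, b⟩, x⟩ := q
    obtain ⟨⟨σ', a', b'⟩, x'⟩ := q'
    simp only [hφ, Prod.mk.injEq] at hqq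
    obtain ⟨⟨h1, h2, h3⟩, h4⟩ := hqq
    simp only at hs hs' hxb hxb' hadj hadj' h1 h2 h3 h4
    subst h4
    subst h2
    obtain ⟨e1, e2⟩ := mv_inj G hs hs' hadj hadj' hxb h1 h3
    subst e1
    subst e2
    rfl
  have hRight : ∑ r ∈ B, F r = ∑ s ∈ States G, (G.degree s.2.2 : ℝ) * wb G p k s.1 s.2.1 s.2.2 := by
    rw [hB, Finset.sum_filter, Finset.sum_product]
    apply Finset.sum_congr rfl
    intro s _
    rw [← Finset.sum_filter]
    simp only [hF]
    rw [Finset.sum_const, nsmul_eq_mul]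
    congr 2
    rw [← SimpleGraph.card_neighborFinset_eq_degree]
    congr 1
    ext x; simp
  calc ∑ s ∈ States G, wb G p (k + 1) s.1 s.2.1 s.2.2
      = p * ∑ q ∈ A, F (φ q) := by rw [hLeft, Finset.mul_sum]
    _ = p * ∑ r ∈ A.image φ, F r := by rw [Finset.sum_image hinj]
    _ ≤ p * ∑ r ∈ B, F r := by
        apply mul_le_mul_of_nonneg_left _ hp
        apply Finset.sum_le_sum_of_subset_of_nonneg
        · intro r hr
          obtain ⟨q, hq, rfl⟩ := Finset.mem_image.1 hr
          exact hmaps q hq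
        · intro r _ _; exact hF0 r
    _ ≤ p * ∑ s ∈ States G, (d : ℝ) * wb G p k s.1 s.2.1 s.2.2 := by
        apply mul_le_mul_of_nonneg_left _ hp
        rw [hRight]
        apply Finset.sum_le_sum
        intro s _
        apply mul_le_mul_of_nonneg_right _ (wb_nonneg G hp k _ _ _)
        exact_mod_cast hd _
    _ = (p * d) * ∑ s ∈ States G, wb G p k s.1 s.2.1 s.2.2 := by
        rw [← Finset.mul_sum]; ring

theorem wb_sum_le {p : ℝ} (hp : 0 ≤ p) (d : ℕ) (hd : ∀ v, G.degree v ≤ d) (k : ℕ) :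
    ∑ s ∈ States G, wb G p k s.1 s.2.1 s.2.2
      ≤ (p * d) ^ k * ∑ s ∈ States G, wb G p 0 s.1 s.2.1 s.2.2 := by
  induction k with
  | zero => simp
  | succ k ih =>
    calc ∑ s ∈ States G, wb G p (k + 1) s.1 s.2.1 s.2.2
        ≤ (p * d) * ∑ s ∈ States G, wb G p k s.1 s.2.1 s.2.2 := wb_sum_succ_le G hp d hd k
      _ ≤ (p * d) * ((p * d) ^ k * ∑ s ∈ States G, wb G p 0 s.1 s.2.1 s.2.2) :=
          mul_le_mul_of_nonneg_left ih (mul_nonneg hp (Nat.cast_nonneg _))
      _ = (p * d) ^ (k + 1) * ∑ s ∈ States G, wb G p 0 s.1 s.2.1 s.2.2 := by ring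

end Vale.Agent.Lib.P308E
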